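import Vale.Agent.P281.H969.TGB.Spec
import Vale.Agent.P281.H389.TG.Jac

/-!
# P281, project T-GF (helper603): fibres of Kodaira dimension zero dominated by fibres of Kodaira
dimension zero, statements (FROZEN)

A generically finite square `f ∘ u = v ∘ f₁`, `v` étale over `Y ∖ S₀`, `u` any generically finite map
(`u` is étale over `X ∖ (f⁻¹(S₀) ∪ B ∪ ⋃ 𝒢)`, `B` of codimension two, `𝒢` finitely many prime divisors: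
automatic, by Remmert's theorem), `Δ` and `Δ₁` are vertical, and `κ(F₁) ≤ 0 ≤ κ(F)` for the very
general fibres. Then the traces of the powers of the relative form of `f₁` are relative forms of `f`.
-/

open Set Filter Metric MeasureTheory Vale.Agent.P281 Vale.Agent.P281.H713 Vale.Agent.P272.K
open Vale.Agent.P281.MF Vale.Agent.P281.ISO Vale.Agent.P281.H713.TZ
open Vale.Agent.P281.H64.Thin (IsThinSet)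
open Vale.Agent.P281.H64.Gen (IsSmallSet IsSmall2 IsAnalyticSet NoExc)
open Vale.Agent.P281.H64.TU (Tame KTame TameOK RelFormT HasFormsT)
open Vale.Agent.P281.H969.TG (UTame HasFormsD HasFam tr)
open Vale.Agent.P281.H969.TGB (OffT TameOKB)
open Vale.Agent.P281.H389.TG (RR)

open scoped Topology ContDiff Manifold ComplexConjugate ComplexOrder ENNReal NNReal

noncomputable section

namespace Vale.Agent.P281.H603.TGF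

section
variable {n p : ℕ} {X₁ Y₁ X Y : Type} [TopologicalSpace X₁] [ChartedSpace (Cm n) X₁]
  [TopologicalSpace Y₁] [ChartedSpace (Cm p) Y₁] [TopologicalSpace X] [ChartedSpace (Cm n) X]
  [TopologicalSpace Y] [ChartedSpace (Cm p) Y]

/-- A generically finite square: `v` is étale over `Y ∖ S₀`, `u` is étale over
`X ∖ (f⁻¹(S₀) ∪ B ∪ ⋃ 𝒢)`, and `Δ`, `Δ₁` are `0` over `Y ∖ S₀`. -/
structure IsSqF (f₁ : X₁ → Y₁) (Δ₁ : Set X₁ → ℝ) (f : X → Y) (Δ : Set X → ℝ) (u : X₁ → X)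
    (v : Y₁ → Y) (S₀ : Set Y) (B : Set X) (𝒢 : Set (Set X)) : Prop where
  holu : ContMDiff 𝓘(ℂ, Cm n) 𝓘(ℂ, Cm n) ω u
  holv : ContMDiff 𝓘(ℂ, Cm p) 𝓘(ℂ, Cm p) ω v
  comm : ∀ x₁, f (u x₁) = v (f₁ x₁)
  surj : Function.Surjective u
  small : IsSmallSet (Cm p) S₀
  etale : ∀ y₁, v y₁ ∉ S₀ → Function.Injective (mfderiv 𝓘(ℂ, Cm p) 𝓘(ℂ, Cm p) v y₁)
  small2 : IsSmall2 (Cm n) B
  an : IsAnalyticSet (Cm n) B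
  fin : 𝒢.Finite
  prime : ∀ D ∈ 𝒢, J.IsPrime (Cm n) D
  et : ∀ x₁, f (u x₁) ∉ S₀ → u x₁ ∉ B ∪ ⋃₀ 𝒢 →
    Function.Injective (mfderiv 𝓘(ℂ, Cm n) 𝓘(ℂ, Cm n) u x₁)
  vert : ∀ x, f x ∉ S₀ → ∀ D, Δ D ≠ 0 → x ∉ D
  vert₁ : ∀ x₁, f (u x₁) ∉ S₀ → ∀ D, Δ₁ D ≠ 0 → x₁ ∉ D

/-- Over `y`, the transported relative forms are locally bounded off `K`. -/
def BddAt (n p d : ℕ) {X₁ Y₁ X Y : Type} [TopologicalSpace X₁] [ChartedSpace (Cm n) X₁]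
    [IsManifold 𝓘(ℂ, Cm n) ω X₁]
    [TopologicalSpace Y₁] [ChartedSpace (Cm p) Y₁] [IsManifold 𝓘(ℂ, Cm p) ω Y₁]
    [TopologicalSpace X] [ChartedSpace (Cm n) X]
    [TopologicalSpace Y] [ChartedSpace (Cm p) Y] (f₁ : X₁ → Y₁) (Δ₁ : Set X₁ → ℝ) (f : X → Y)
    (u : X₁ → X) (v : Y₁ → Y) (S₁ : Set Y₁)
    (w₁ : Chart n X₁ → Cm n → Matrix (Fin n) (Fin n) ℂ) (e₀ : Cm n ≃L[ℂ] (Cm p × Cm d))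
    (K : Set X) (y : Y) : Prop :=
  ∀ (N : ℕ) (𝒜₁ : Set (Set X₁)) (κ₁ : Set X₁ → ℕ) (Θ₁ : X₁ → ℂ),
    RelFormT (KTame w₁) f₁ S₁ e₀ N 𝒜₁ κ₁ Θ₁ → (∀ D ∈ 𝒜₁, Δ₁ D ≠ 0) →
    (∀ D, (κ₁ D : ℝ) ≤ N * Δ₁ D) → ∀ (x x₀ : X) (y₀ : Y), f x = y →
    x ∈ (chartAt (Cm n) x₀).source → y ∈ (chartAt (Cm p) y₀).source →
    ∃ C : ℝ, ∀ᶠ z in 𝓝 x, f z = y → z ∉ K → ∀ w, u w = z → ‖RR n p u v f₁ f N Θ₁ x₀ y₀ w‖ ≤ C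

end

/-- **F1** (helper592). `F`, `F₁` the fibres over `y`, `y₁`, `σ ≠ 0` a section of `m (K_F + Δ|F)`,
`u_F = i⁻¹ ∘ u ∘ i₁`. The functions `t ↦ Θ₁ (i₁ t) / JP e₀ (dM f₁ (i₁ t)) P_t ^ N` (`P_t` any left
inverse of `d i₁`; `H597/SA/R: adj_local`) and `t ↦ σ (u_F t) det (dM u_F t) ^ m` are sections of
`N K_(F₁)`, `m K_(F₁)`; as `κ(F₁) ≤ 0`, `τ^m = c s^N`, so `|RR|^m = |c| |σ|^N |unit|` (`H389: JP_tr`);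
there are finitely many `y₁` over `y`. -/
def FibBddStmt : Prop :=
  ∀ (p d : ℕ) (X₁ Y₁ X Y : Type) [TopologicalSpace X₁] [T2Space X₁] [CompactSpace X₁]
    [ChartedSpace (Cm (p + d)) X₁] [IsManifold 𝓘(ℂ, Cm (p + d)) ω X₁] [TopologicalSpace Y₁]
    [T2Space Y₁] [CompactSpace Y₁] [ChartedSpace (Cm p) Y₁] [IsManifold 𝓘(ℂ, Cm p) ω Y₁]
    [TopologicalSpace X] [T2Space X] [CompactSpace X]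
    [ChartedSpace (Cm (p + d)) X] [IsManifold 𝓘(ℂ, Cm (p + d)) ω X] [TopologicalSpace Y]
    [T2Space Y] [ChartedSpace (Cm p) Y] [IsManifold 𝓘(ℂ, Cm p) ω Y] (f₁ : X₁ → Y₁)
    (Δ₁ : Set X₁ → ℝ) (f : X → Y) (Δ : Set X → ℝ) (u : X₁ → X) (v : Y₁ → Y) (S₀ S : Set Y)
    (S₁ : Set Y₁) (B : Set X) (𝒢 : Set (Set X))
    (w₁ : Chart (p + d) X₁ → Cm (p + d) → Matrix (Fin (p + d)) (Fin (p + d)) ℂ)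
    (e₀ : Cm (p + d) ≃L[ℂ] (Cm p × Cm d)) (y : Y), 0 < d →
    IsSqF (n := p + d) (p := p) f₁ Δ₁ f Δ u v S₀ B 𝒢 →
    ContMDiff 𝓘(ℂ, Cm (p + d)) 𝓘(ℂ, Cm p) ω f₁ → ContMDiff 𝓘(ℂ, Cm (p + d)) 𝓘(ℂ, Cm p) ω f →
    J.IsSNC (Cm (p + d)) Δ₁ → J.IsSNC (Cm (p + d)) Δ → IsClosed S → S₀ ⊆ S →
    (∀ y₁, v y₁ ∉ S → y₁ ∉ S₁) →
    (∀ x, f₁ x ∉ S₁ → Function.Surjective (mfderiv 𝓘(ℂ, Cm (p + d)) 𝓘(ℂ, Cm p) f₁ x)) →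
    (∀ x, f x ∉ S → Function.Surjective (mfderiv 𝓘(ℂ, Cm (p + d)) 𝓘(ℂ, Cm p) f x)) →
    (∀ y ∉ S, IsConnected (f ⁻¹' {y})) → (∀ y₁ ∉ S₁, IsConnected (f₁ ⁻¹' {y₁})) →
    (∀ D ∈ 𝒢, ¬ f ⁻¹' {y} ⊆ D) → ¬ f ⁻¹' {y} ⊆ B → y ∉ S →
    (∃ (F : Type) (_ : TopologicalSpace F) (_ : T2Space F) (_ : ChartedSpace (Cm d) F) (i : F → X),
      H511.Surf.IsFibre (Cm (p + d)) (Cm d) f y i ∧ Function.Injective i ∧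
      0 ≤ TZ.S.kodR (Cm (p + d)) (Cm d) i Δ) →
    (∀ y₁, v y₁ = y → ∃ (F : Type) (_ : TopologicalSpace F) (_ : T2Space F)
      (_ : ChartedSpace (Cm d) F) (i : F → X₁),
      H511.Surf.IsFibre (Cm (p + d)) (Cm d) f₁ y₁ i ∧ Function.Injective i ∧
      TZ.S.kodR (Cm (p + d)) (Cm d) i Δ₁ ≤ 0) →
    BddAt (p + d) p d f₁ Δ₁ f u v S₁ w₁ e₀ (B ∪ ⋃₀ 𝒢) y

/-- **F2** (helper603): extension from the fibres over a dense set. -/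
def ExtKStmt : Prop :=
  ∀ (p d : ℕ) (X Y : Type) [TopologicalSpace X] [T2Space X]
    [ChartedSpace (Cm (p + d)) X] [IsManifold 𝓘(ℂ, Cm (p + d)) ω X] [TopologicalSpace Y]
    [T2Space Y] [ChartedSpace (Cm p) Y] [IsManifold 𝓘(ℂ, Cm p) ω Y] (f : X → Y) (S : Set Y)
    (B : Set X) (𝒢 : Set (Set X)) (G : X → ℂ) (x : X) (𝒟 : Set Y), 0 < d →
    ContMDiff 𝓘(ℂ, Cm (p + d)) 𝓘(ℂ, Cm p) ω f → IsClosed S →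
    (∀ x, f x ∉ S → Function.Surjective (mfderiv 𝓘(ℂ, Cm (p + d)) 𝓘(ℂ, Cm p) f x)) →
    (∀ y ∉ S, IsPreconnected (f ⁻¹' {y})) → IsClosed B → IsAnalyticSet (Cm (p + d)) B →
    𝒢.Finite → (∀ D ∈ 𝒢, J.IsPrime (Cm (p + d)) D) → (∀ y ∉ S, ∀ D ∈ 𝒢, ¬ f ⁻¹' {y} ⊆ D) →
    (∀ y ∉ S, ¬ f ⁻¹' {y} ⊆ B) → f x ∉ S →
    (∀ᶠ z in 𝓝 x, z ∉ B ∪ ⋃₀ 𝒢 → HolV (Cm (p + d)) G z) → Dense 𝒟 →
    (∀ᶠ x' in 𝓝 x, f x' ∈ 𝒟 → ∃ C : ℝ, ∀ᶠ z in 𝓝 x', f z = f x' → z ∉ B ∪ ⋃₀ 𝒢 → ‖G z‖ ≤ C) →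
    ∃ H : X → ℂ, HolV (Cm (p + d)) H x ∧ ∀ᶠ z in 𝓝 x, z ∉ B ∪ ⋃₀ 𝒢 → G z = H z

/-- **F3** (helper389): the traces (`hol`: from F2, at all points `x` with `f x ∉ S`; `bound`: as B5). -/
def TraceFStmt : Prop :=
  ∀ (p d N k m : ℕ) (X₁ Y₁ X Y : Type) [TopologicalSpace X₁] [T2Space X₁] [CompactSpace X₁]
    [ChartedSpace (Cm (p + d)) X₁] [IsManifold 𝓘(ℂ, Cm (p + d)) ω X₁] [TopologicalSpace Y₁]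
    [T2Space Y₁] [ChartedSpace (Cm p) Y₁] [IsManifold 𝓘(ℂ, Cm p) ω Y₁] [TopologicalSpace X]
    [T2Space X] [CompactSpace X]
    [ChartedSpace (Cm (p + d)) X] [IsManifold 𝓘(ℂ, Cm (p + d)) ω X] [TopologicalSpace Y]
    [T2Space Y] [ChartedSpace (Cm p) Y] [IsManifold 𝓘(ℂ, Cm p) ω Y] (f₁ : X₁ → Y₁)
    (Δ₁ : Set X₁ → ℝ) (f : X → Y) (Δ : Set X → ℝ) (u : X₁ → X) (v : Y₁ → Y) (S₀ S : Set Y)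
    (S₁ : Set Y₁) (B : Set X) (𝒢 : Set (Set X))
    (w₁ : Chart (p + d) X₁ → Cm (p + d) → Matrix (Fin (p + d)) (Fin (p + d)) ℂ)
    (e₀ : Cm (p + d) ≃L[ℂ] (Cm p × Cm d)) (𝒜₁ : Set (Set X₁)) (κ₁ : Set X₁ → ℕ) (Θ₁ : X₁ → ℂ)
    (𝒟 : Set Y), 0 < d → 0 < k →
    IsSqF (n := p + d) (p := p) f₁ Δ₁ f Δ u v S₀ B 𝒢 →
    ContMDiff 𝓘(ℂ, Cm (p + d)) 𝓘(ℂ, Cm p) ω f₁ → ContMDiff 𝓘(ℂ, Cm (p + d)) 𝓘(ℂ, Cm p) ω f →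
    J.IsSNC (Cm (p + d)) Δ₁ → J.IsSNC (Cm (p + d)) Δ → IsClosed S → S₀ ⊆ S →
    (∀ y₁, v y₁ ∉ S → y₁ ∉ S₁) →
    (∀ x, f x ∉ S → Function.Surjective (mfderiv 𝓘(ℂ, Cm (p + d)) 𝓘(ℂ, Cm p) f x)) →
    (∀ y ∉ S, IsPreconnected (f ⁻¹' {y})) → (∀ y ∉ S, ∀ D ∈ 𝒢, ¬ f ⁻¹' {y} ⊆ D) →
    (∀ y ∉ S, ¬ f ⁻¹' {y} ⊆ B) →
    (∀ x, f x ∉ S → x ∉ B ∪ ⋃₀ 𝒢 → (u ⁻¹' {x}).encard ≤ m) →
    Dense 𝒟 → (∀ y ∈ 𝒟, y ∉ S → BddAt (p + d) p d f₁ Δ₁ f u v S₁ w₁ e₀ (B ∪ ⋃₀ 𝒢) y) →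
    RelFormT (KTame w₁) f₁ S₁ e₀ N 𝒜₁ κ₁ Θ₁ → (∀ D ∈ 𝒜₁, Δ₁ D ≠ 0) →
    (∀ D, (κ₁ D : ℝ) ≤ N * Δ₁ D) →
    RelFormT (OffT B (UTame u w₁)) f S e₀ (k * N) (insert B 𝒢) 0
      (tr (Cm (p + d)) (Cm p) u v f₁ N k Θ₁)

/-- **F4** (helper176; as B4). -/
def CardFStmt : Prop :=
  ∀ (n p : ℕ) (X₁ X Y : Type) [TopologicalSpace X₁] [T2Space X₁] [CompactSpace X₁]
    [ChartedSpace (Cm n) X₁] [IsManifold 𝓘(ℂ, Cm n) ω X₁] [TopologicalSpace X] [T2Space X]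
    [CompactSpace X] [ConnectedSpace X]
    [ChartedSpace (Cm n) X] [IsManifold 𝓘(ℂ, Cm n) ω X] [TopologicalSpace Y] [T2Space Y]
    [ChartedSpace (Cm p) Y] [IsManifold 𝓘(ℂ, Cm p) ω Y] (u : X₁ → X) (f : X → Y) (S : Set Y)
    (B : Set X) (𝒢 : Set (Set X)), ContMDiff 𝓘(ℂ, Cm n) 𝓘(ℂ, Cm n) ω u →
    ContMDiff 𝓘(ℂ, Cm n) 𝓘(ℂ, Cm p) ω f → Function.Surjective f → IsSmallSet (Cm p) S →
    (∀ x, f x ∉ S → Function.Surjective (mfderiv 𝓘(ℂ, Cm n) 𝓘(ℂ, Cm p) f x)) →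
    IsSmall2 (Cm n) B → 𝒢.Finite → (∀ D ∈ 𝒢, J.IsPrime (Cm n) D) →
    (∀ x₁, f (u x₁) ∉ S → u x₁ ∉ B ∪ ⋃₀ 𝒢 →
      Function.Injective (mfderiv 𝓘(ℂ, Cm n) 𝓘(ℂ, Cm n) u x₁)) →
    ∃ m : ℕ, ∀ x, f x ∉ S → x ∉ B ∪ ⋃₀ 𝒢 → (u ⁻¹' {x}).encard ≤ m

/-- **F5** (helper383 / helper969; as B7, for `r = 0`: over `y ∉ S` some power sum of the values on the
sheets over a point off `B ∪ ⋃ 𝒢` is not `0`). -/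
def DescFStmt : Prop :=
  ∀ (p d m : ℕ) (X₁ Y₁ X Y : Type) [TopologicalSpace X₁] [T2Space X₁] [CompactSpace X₁]
    [ChartedSpace (Cm (p + d)) X₁] [IsManifold 𝓘(ℂ, Cm (p + d)) ω X₁] [TopologicalSpace Y₁]
    [T2Space Y₁] [ChartedSpace (Cm p) Y₁] [IsManifold 𝓘(ℂ, Cm p) ω Y₁] [TopologicalSpace X]
    [T2Space X] [CompactSpace X]
    [ChartedSpace (Cm (p + d)) X] [IsManifold 𝓘(ℂ, Cm (p + d)) ω X] [TopologicalSpace Y]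
    [T2Space Y] [ChartedSpace (Cm p) Y] [IsManifold 𝓘(ℂ, Cm p) ω Y] (f₁ : X₁ → Y₁)
    (Δ₁ : Set X₁ → ℝ) (f : X → Y) (Δ : Set X → ℝ) (u : X₁ → X) (v : Y₁ → Y) (S₀ S : Set Y)
    (S₁ : Set Y₁) (B : Set X) (𝒢 : Set (Set X))
    (w₁ : Chart (p + d) X₁ → Cm (p + d) → Matrix (Fin (p + d)) (Fin (p + d)) ℂ)
    (e₀ : Cm (p + d) ≃L[ℂ] (Cm p × Cm d)) (𝒟 : Set Y), 0 < d →
    IsSqF (n := p + d) (p := p) f₁ Δ₁ f Δ u v S₀ B 𝒢 →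
    ContMDiff 𝓘(ℂ, Cm (p + d)) 𝓘(ℂ, Cm p) ω f₁ → ContMDiff 𝓘(ℂ, Cm (p + d)) 𝓘(ℂ, Cm p) ω f →
    Function.Surjective f → J.IsSNC (Cm (p + d)) Δ₁ → J.IsSNC (Cm (p + d)) Δ → IsClosed S →
    S₀ ⊆ S → (∀ y₁, v y₁ ∉ S → y₁ ∉ S₁) →
    (∀ x, f₁ x ∉ S₁ → Function.Surjective (mfderiv 𝓘(ℂ, Cm (p + d)) 𝓘(ℂ, Cm p) f₁ x)) →
    (∀ x, f x ∉ S → Function.Surjective (mfderiv 𝓘(ℂ, Cm (p + d)) 𝓘(ℂ, Cm p) f x)) →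
    (∀ y ∉ S, IsPreconnected (f ⁻¹' {y})) → (∀ y₁ ∉ S₁, IsPreconnected (f₁ ⁻¹' {y₁})) →
    (∀ y ∉ S, ∀ D ∈ 𝒢, ¬ f ⁻¹' {y} ⊆ D) → (∀ y ∉ S, ¬ f ⁻¹' {y} ⊆ B) →
    (∀ x, f x ∉ S → x ∉ B ∪ ⋃₀ 𝒢 → (u ⁻¹' {x}).encard ≤ m) →
    Dense 𝒟 → (∀ y ∈ 𝒟, y ∉ S → BddAt (p + d) p d f₁ Δ₁ f u v S₁ w₁ e₀ (B ∪ ⋃₀ 𝒢) y) →
    (∀ y₁ ∉ S₁, HasFormsD (KTame w₁) f₁ S₁ e₀ Δ₁ 0 y₁) →
    ∀ y ∉ S, HasFormsT (OffT B (UTame u w₁)) f S e₀ Δ 0 y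

/-- **F6** (helper282 / helper456; Baire, `VSmallStmt`): the good points are dense. -/
def DenseFStmt : Prop :=
  ∀ (p : ℕ) (Y₁ Y : Type) [TopologicalSpace Y₁] [T2Space Y₁] [CompactSpace Y₁]
    [ChartedSpace (Cm p) Y₁] [IsManifold 𝓘(ℂ, Cm p) ω Y₁] [TopologicalSpace Y] [T2Space Y]
    [ChartedSpace (Cm p) Y] [IsManifold 𝓘(ℂ, Cm p) ω Y] (v : Y₁ → Y) (S₀ : Set Y)
    (H : ℕ → Set Y) (H₁ : ℕ → Set Y₁),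
    ContMDiff 𝓘(ℂ, Cm p) 𝓘(ℂ, Cm p) ω v → IsSmallSet (Cm p) S₀ →
    (∀ y₁, v y₁ ∉ S₀ → Function.Injective (mfderiv 𝓘(ℂ, Cm p) 𝓘(ℂ, Cm p) v y₁)) →
    (∀ k, IsThinSet (Cm p) (H k)) → (∀ k, IsThinSet (Cm p) (H₁ k)) →
    Dense {y : Y | (∀ k, y ∉ H k) ∧ ∀ y₁, v y₁ = y → ∀ k, y₁ ∉ H₁ k}

/-- The very general fibres of `f` have `κ(F, K_F + Δ|F) ≥ 0`, those of `f₁` have
`κ(F₁, K + Δ₁|F₁) ≤ 0`. -/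
def KapZero (n p d : ℕ) {X₁ Y₁ X Y : Type} [TopologicalSpace X₁] [ChartedSpace (Cm n) X₁]
    [TopologicalSpace Y₁] [ChartedSpace (Cm p) Y₁] [TopologicalSpace X] [ChartedSpace (Cm n) X]
    [TopologicalSpace Y] [ChartedSpace (Cm p) Y] (f₁ : X₁ → Y₁) (Δ₁ : Set X₁ → ℝ) (f : X → Y)
    (Δ : Set X → ℝ) : Prop :=
  (∃ H : ℕ → Set Y, (∀ k, IsThinSet (Cm p) (H k)) ∧ ∀ y, (∀ k, y ∉ H k) →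
    ∃ (F : Type) (_ : TopologicalSpace F) (_ : T2Space F) (_ : ChartedSpace (Cm d) F) (i : F → X),
      H511.Surf.IsFibre (Cm n) (Cm d) f y i ∧ Function.Injective i ∧
      0 ≤ TZ.S.kodR (Cm n) (Cm d) i Δ) ∧
  ∃ H : ℕ → Set Y₁, (∀ k, IsThinSet (Cm p) (H k)) ∧ ∀ y₁, (∀ k, y₁ ∉ H k) →
    ∃ (F : Type) (_ : TopologicalSpace F) (_ : T2Space F) (_ : ChartedSpace (Cm d) F) (i : F → X₁),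
      H511.Surf.IsFibre (Cm n) (Cm d) f₁ y₁ i ∧ Function.Injective i ∧
      TZ.S.kodR (Cm n) (Cm d) i Δ₁ ≤ 0

/-- **T-GF**, the goal (assembly: helper603 / helper969). -/
def TGFStmt : Prop :=
  ∀ (p d : ℕ) (X₁ Y₁ X Y : Type) [TopologicalSpace X₁] [ChartedSpace (Cm (p + d)) X₁]
    [IsManifold 𝓘(ℂ, Cm (p + d)) ω X₁] [TopologicalSpace Y₁] [ChartedSpace (Cm p) Y₁]
    [IsManifold 𝓘(ℂ, Cm p) ω Y₁] [TopologicalSpace X] [ChartedSpace (Cm (p + d)) X]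
    [TopologicalSpace Y] [ChartedSpace (Cm p) Y] (f₁ : X₁ → Y₁) (Δ₁ : Set X₁ → ℝ) (f : X → Y)
    (Δ : Set X → ℝ) (u : X₁ → X) (v : Y₁ → Y) (S₀ : Set Y) (B : Set X) (𝒢 : Set (Set X)), 0 < d →
    H511.Surf.IsFibration (Cm (p + d)) (Cm p) f₁ Δ₁ →
    H511.Surf.IsFibration (Cm (p + d)) (Cm p) f Δ →
    IsSqF (n := p + d) (p := p) f₁ Δ₁ f Δ u v S₀ B 𝒢 → HasFam p d 0 f₁ Δ₁ →
    KapZero (p + d) p d f₁ Δ₁ f Δ →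
    ∃ H : ℕ → Set Y, (∀ k, IsThinSet (Cm p) (H k)) ∧ ∀ y, (∀ k, y ∉ H k) →
      ∀ (F : Type) [TopologicalSpace F] [ChartedSpace (Cm d) F] (i : F → X),
        H511.Surf.IsFibre (Cm (p + d)) (Cm d) f y i →
        TZ.S.kodF (p + d) p Δ (id : X → X) f ≤ TZ.S.kodX (Cm (p + d)) Δ ∧
          (TZ.S.kodR (Cm (p + d)) (Cm d) i Δ ≤ 0 →
            TZ.S.kodR (Cm (p + d)) (Cm d) i Δ + TZ.S.kodF (p + d) p Δ (id : X → X) f ≤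
              TZ.S.kodX (Cm (p + d)) Δ ∧
            (NoExc (Cm (p + d)) (Cm p) f → H511.Surf.Q1 (Cm (p + d)) (Cm p) (Cm d) f Δ i))

end Vale.Agent.P281.H603.TGF
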