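import Vale.Agent.P281.H603.TGF.Line

/-!
# P281, T-GF (helper603): gluing local extensions, small circles

Mathlib only.
-/

open Set Filter Metric Topology

noncomputable section

namespace Vale.Agent.P281.H603.TGF

variable {V : Type} [NormedAddCommGroup V] [NormedSpace ℂ V]

theorem eq_of_freq' {f g : V → ℂ} {z : V} (hf : ContinuousAt f z) (hg : ContinuousAt g z)
    (h : ∃ᶠ t in 𝓝 z, f t = g t) : f z = g z := by
  by_contra hcon
  have h5 : ContinuousAt (fun y => f y - g y) z := hf.sub hg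
  refine h ?_
  filter_upwards [h5.eventually_ne (sub_ne_zero.2 hcon)] with y hy
  exact sub_ne_zero.1 hy

/-- local extensions glue -/
theorem glue {W K : Set V} (hW : IsOpen W) {g₀ : V → ℂ}
    (hloc : ∀ v ∈ W, ∃ g : V → ℂ, AnalyticAt ℂ g v ∧ ∀ᶠ v' in 𝓝 v, v' ∉ K → g v' = g₀ v')
    (hden : ∀ v ∈ W, ∃ᶠ v' in 𝓝 v, v' ∉ K) :
    ∃ g : V → ℂ, (∀ v ∈ W, AnalyticAt ℂ g v) ∧ ∀ v ∈ W, v ∉ K → g v = g₀ v := by
  choose! h hh hhe using hloc
  have key : ∀ v ∈ W, (fun v' => h v' v') =ᶠ[𝓝 v] h v := by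
    intro v hv
    filter_upwards [hW.mem_nhds hv, (hh v hv).eventually_analyticAt,
      eventually_eventually_nhds.2 (hhe v hv)] with v' h1 h2 h3
    refine eq_of_freq' (hh v' h1).continuousAt h2.continuousAt ?_
    refine ((hden v' h1).and_eventually ((hhe v' h1).and h3)).mono ?_
    rintro w ⟨h4, h5, h6⟩
    exact (h5 h4).trans (h6 h4).symm
  refine ⟨fun v' => h v' v', fun v hv => (hh v hv).congr (key v hv).symm, fun v hv hvK => ?_⟩
  exact (hhe v hv).self_of_nhds hvK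

/-- a small circle on which an analytic function does not vanish -/
theorem exists_circle {g : V → ℂ} {v₀ : V} {r : ℝ} (hr : 0 < r)
    (hg : ∀ v ∈ ball v₀ r, AnalyticAt ℂ g v) (hne : ∃ v ∈ ball v₀ r, g v ≠ 0) :
    ∃ ξ : V, ∀ᶠ s : ℂ in 𝓝 0, s ≠ 0 → g (v₀ + s • ξ) ≠ 0 := by
  obtain ⟨v, hv, hv0⟩ := hne
  refine ⟨v - v₀, ?_⟩
  have hξ : ‖v - v₀‖ < r := by simpa [dist_eq_norm] using hv
  obtain ⟨R, hR1, hR2⟩ : ∃ R : ℝ, 1 < R ∧ R * ‖v - v₀‖ < r := by
    by_cases h0 : ‖v - v₀‖ = 0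
    · exact ⟨2, by norm_num, by rw [h0]; simpa using hr⟩
    · have hpos : 0 < ‖v - v₀‖ := lt_of_le_of_ne (norm_nonneg _) (Ne.symm h0)
      obtain ⟨R, h1, h2⟩ := exists_between ((one_lt_div hpos).2 hξ)
      exact ⟨R, h1, (lt_div_iff₀ hpos).1 h2⟩
  have hmem : ∀ s ∈ ball (0 : ℂ) R, v₀ + s • (v - v₀) ∈ ball v₀ r := by
    intro s hs
    have hs' : ‖s‖ < R := by simpa using hs
    rw [mem_ball, dist_eq_norm, add_sub_cancel_left, norm_smul]
    exact lt_of_le_of_lt (mul_le_mul_of_nonneg_right hs'.le (norm_nonneg _)) hR2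
  have han : AnalyticOnNhd ℂ (fun s : ℂ => g (v₀ + s • (v - v₀))) (ball 0 R) := by
    intro s hs
    refine AnalyticAt.comp' (f := fun s : ℂ => v₀ + s • (v - v₀)) (hg _ (hmem s hs)) ?_
    fun_prop
  have h0 : (0 : ℂ) ∈ ball (0 : ℂ) R := mem_ball_self (by linarith)
  rcases (han 0 h0).eventually_eq_zero_or_eventually_ne_zero with h | h
  · exfalso
    have h1 := han.eqOn_zero_of_preconnected_of_eventuallyEq_zero
      (convex_ball (0 : ℂ) R).isPreconnected h0 h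
    have h2 := h1 (show (1 : ℂ) ∈ ball (0 : ℂ) R by simpa using hR1)
    simp only [one_smul, add_sub_cancel, Pi.zero_apply] at h2
    exact hv0 h2
  · exact eventually_nhdsWithin_iff.1 h

end Vale.Agent.P281.H603.TGF
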