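import Vale.Agent.P281.H603.TGF.Spec
import Vale.Agent.P281.H603.TGF.Glue
import Vale.Agent.P281.H969.TGB.Loc
import Vale.Agent.P281.H152.K.Chart
import Vale.Agent.P281.H349.Gen.Opn

/-!
# P281, T-GF (helper603), block F2: extension from the fibres over a dense set
-/

open scoped Manifold ContDiff Topology
open Set Filter Metric Module
open Vale.Agent.P281 Vale.Agent.P281.MF Vale.Agent.P281.ISO
open Vale.Agent.P281.H713 Vale.Agent.P281.H969.TL Vale.Agent.P281.H969.TG Vale.Agent.P281.H969.TGB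
open Vale.Agent.P281.H64.Gen (IsSmallSet IsSmall2 IsAnalyticSet)
open Vale.Agent.P272.K (Chart IsHermitian Cm)

set_option linter.all false

noncomputable section

namespace Vale.Agent.P281.H603.TGF

/-- local equations of `B ∪ ⋃ 𝒢` -/
theorem fam_K {n : ℕ} {X : Type} [TopologicalSpace X] [ChartedSpace (Cm n) X]
    [IsManifold 𝓘(ℂ, Cm n) ω X] {B : Set X} (hB : IsAnalyticSet (Cm n) B) {𝒢 : Set (Set X)}
    (h𝒢 : 𝒢.Finite) (hp : ∀ D ∈ 𝒢, J.IsPrime (Cm n) D) (x : X) :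
    ∃ (U : Set X) (ι : Type) (g : ι → X → ℂ), IsOpen U ∧ x ∈ U ∧
      (∀ i, ∀ z ∈ U, HolV (Cm n) (g i) z) ∧ ∀ z ∈ U, z ∈ B ∪ ⋃₀ 𝒢 ↔ ∀ i, g i z = 0 := by
  classical
  obtain ⟨U, ι, h, hU, hxU, hh, hhB⟩ := hB x
  have h1 : ∀ D, ∃ (g : X → ℂ) (V : Set X), D ∈ h𝒢.toFinset → IsOpen V ∧ x ∈ V ∧
      (∀ z ∈ V, HolV (Cm n) g z) ∧ ∀ z ∈ V, z ∈ D ↔ g z = 0 := by
    intro D
    by_cases hD : D ∈ h𝒢.toFinset
    · obtain ⟨g, V, hV, hxV, hgV, hDV, -⟩ := (hp D (by simpa using hD)).2.1 x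
      exact ⟨g, V, fun _ => ⟨hV, hxV, hgV, hDV⟩⟩
    · exact ⟨fun _ => 0, ∅, fun h' => absurd h' hD⟩
  choose g V hgV using h1
  refine ⟨U ∩ ⋂ D ∈ h𝒢.toFinset, V D, ι, fun i z => (∏ D ∈ h𝒢.toFinset, g D z) * h i z,
    hU.inter (isOpen_biInter_finset fun D hD => (hgV D hD).1),
    ⟨hxU, mem_iInter₂.2 fun D hD => (hgV D hD).2.1⟩, fun i z hz => ?_, fun z hz => ?_⟩
  · exact (HolV.prod fun D hD => (hgV D hD).2.2.1 z (mem_iInter₂.1 hz.2 D hD)).mul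
      (hh i z hz.1)
  · constructor
    · rintro (hzB | ⟨D, hD, hzD⟩) i
      · show (∏ D ∈ h𝒢.toFinset, g D z) * h i z = 0
        rw [(hhB z hz.1).1 hzB i, mul_zero]
      · have hD' : D ∈ h𝒢.toFinset := by simpa using hD
        have h2 : g D z = 0 := ((hgV D hD').2.2.2 z (mem_iInter₂.1 hz.2 D hD')).1 hzD
        show (∏ D ∈ h𝒢.toFinset, g D z) * h i z = 0
        rw [Finset.prod_eq_zero hD' h2, zero_mul]
    · intro h2
      by_cases h3 : ∏ D ∈ h𝒢.toFinset, g D z = 0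
      · obtain ⟨D, hD, h4⟩ := Finset.prod_eq_zero_iff.1 h3
        exact Or.inr ⟨D, by simpa using hD, ((hgV D hD).2.2.2 z (mem_iInter₂.1 hz.2 D hD)).2 h4⟩
      · refine Or.inl ((hhB z hz.1).2 fun i => ?_)
        exact (mul_eq_zero.1 (h2 i)).resolve_left h3

section One

variable {p d : ℕ} {X Y : Type} [TopologicalSpace X] [ChartedSpace (Cm (p + d)) X]
  [IsManifold 𝓘(ℂ, Cm (p + d)) ω X] [TopologicalSpace Y] [ChartedSpace (Cm p) Y]
  [IsManifold 𝓘(ℂ, Cm p) ω Y]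

/-- `B ∪ ⋃ 𝒢` does not contain the fibre -/
theorem not_sub_K {f : X → Y} (hf : ∀ x, HolM (Cm (p + d)) (Cm p) f x)
    (e₀ : Cm (p + d) ≃L[ℂ] (Cm p × Cm d)) {y : Y}
    (hs : ∀ x, f x = y → Function.Surjective (dM (Cm (p + d)) (Cm p) f x))
    (hc : IsPreconnected (f ⁻¹' {y})) {B : Set X} (hBc : IsClosed B) {𝒢 : Set (Set X)}
    (h𝒢 : 𝒢.Finite) (hp : ∀ D ∈ 𝒢, J.IsPrime (Cm (p + d)) D)
    (hne : ∀ D ∈ 𝒢, ¬ f ⁻¹' {y} ⊆ D) (hneB : ¬ f ⁻¹' {y} ⊆ B) : ¬ f ⁻¹' {y} ⊆ B ∪ ⋃₀ 𝒢 := by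
  intro hcon
  obtain ⟨x₀, hx₀, hx₀B⟩ : ∃ x, f x = y ∧ x ∉ B := by
    by_contra h1
    push Not at h1
    exact hneB fun x hx => h1 x hx
  obtain ⟨xa, ⟨hxa1, hxa2⟩, hxaB⟩ : ∃ x, (f x = y ∧ ∀ D ∈ h𝒢.toFinset, x ∉ D) ∧ x ∉ B :=
    ((dense_fib hf e₀ hs hc (fun D hD => hp D (by simpa using hD))
      (fun D hD => hne D (by simpa using hD))
      hx₀).and_eventually (hBc.isOpen_compl.mem_nhds hx₀B)).exists
  rcases hcon (show xa ∈ f ⁻¹' {y} from hxa1) with h | ⟨D, hD, h⟩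
  · exact hxaB h
  · exact hxa2 D (by simpa using hD) h

/-- one function which vanishes on `B ∪ ⋃ 𝒢` and not on the fibre -/
theorem exists_one {f : X → Y} (hf : ∀ x, HolM (Cm (p + d)) (Cm p) f x)
    (e₀ : Cm (p + d) ≃L[ℂ] (Cm p × Cm d)) {y : Y}
    (hs : ∀ x, f x = y → Function.Surjective (dM (Cm (p + d)) (Cm p) f x))
    (hc : IsPreconnected (f ⁻¹' {y})) {B : Set X} (hB : IsAnalyticSet (Cm (p + d)) B)
    (hBc : IsClosed B) {𝒢 : Set (Set X)}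
    (h𝒢 : 𝒢.Finite) (hp : ∀ D ∈ 𝒢, J.IsPrime (Cm (p + d)) D)
    (hne : ∀ D ∈ 𝒢, ¬ f ⁻¹' {y} ⊆ D) (hneB : ¬ f ⁻¹' {y} ⊆ B) {x : X} (hx : f x = y) :
    ∃ g : X → ℂ, HolV (Cm (p + d)) g x ∧ (∀ᶠ z in 𝓝 x, z ∈ B ∪ ⋃₀ 𝒢 → g z = 0) ∧
      ∃ᶠ z in 𝓝 x, f z = f x ∧ g z ≠ 0 := by
  obtain ⟨U, ι, g, hU, hxU, hg, hgK⟩ := fam_K hB h𝒢 hp x
  obtain ⟨N, hN, hNU, hNe⟩ := slice_identU hf e₀ (hs x hx) hU hxU
  have hfr := dense_fam hf e₀ hs hc (A := B ∪ ⋃₀ 𝒢) (fun x' _ => fam_K hB h𝒢 hp x')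
    (not_sub_K hf e₀ hs hc hBc h𝒢 hp hne hneB) hx
  obtain ⟨z, ⟨hz1, hz2⟩, hzN⟩ := (hfr.and_eventually
    (show ∀ᶠ z in 𝓝 x, z ∈ N from hN)).exists
  obtain ⟨i, hi⟩ : ∃ i, g i z ≠ 0 := by
    by_contra hcon
    push Not at hcon
    exact hz2 ((hgK z (hNU hzN)).2 hcon)
  refine ⟨g i, hg i x hxU, ?_, fun hcon => hi ?_⟩
  · filter_upwards [hU.mem_nhds hxU] with w hw hwK
    exact (hgK w hw).1 hwK i
  · refine hNe (g i) (hg i) ⟨x, mem_of_mem_nhds hN, rfl, ?_⟩ z hzN (by rw [hz1, hx])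
    filter_upwards [hcon] with w hw h1
    by_contra h2
    exact hw ⟨h1, h2⟩

/-- functions off `K` -/
theorem agree_off {n : ℕ} {M : Type} [TopologicalSpace M] [T2Space M] [ChartedSpace (Cm n) M]
    [IsManifold 𝓘(ℂ, Cm n) ω M] {K : Set M} (hK : IsClosed K) {G Den : M → ℂ} {x : M}
    (hD : HolV (Cm n) Den x) (hne : ∃ᶠ z in 𝓝 x, Den z ≠ 0)
    (hKD : ∀ᶠ z in 𝓝 x, z ∈ K → Den z = 0) (hG : ∀ᶠ z in 𝓝 x, z ∉ K → HolV (Cm n) G z)
    (hb : ∀ᶠ z in 𝓝 x, ∃ C : ℝ, ∀ᶠ w in 𝓝 z, w ∉ K → ‖G w‖ ≤ C) :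
    ∃ H : M → ℂ, HolV (Cm n) H x ∧ ∀ᶠ z in 𝓝 x, z ∉ K → G z = H z := by
  have hne' : ¬ ∀ᶠ z in 𝓝 x, Den z = 0 := fun h => hne (h.mono fun z hz h0 => h0 hz)
  obtain ⟨Q, hQ, hQe⟩ := extendM_off hD hne' (h := G) (by
    filter_upwards [hKD, hG] with z h1 h2 h3
    exact h2 fun h4 => h3 (h1 h4)) (by
    filter_upwards [hb, eventually_eventually_nhds.2 hKD] with z h1 h2 h3
    obtain ⟨C, hC⟩ := h1
    refine subset_closure ⟨h3, C, ?_⟩
    filter_upwards [hC, h2] with w h4 h5 h6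
    exact h4 fun h7 => h6 (h5 h7))
  refine ⟨Q, hQ, ?_⟩
  filter_upwards [hG, H383.Gen.ne_freq hD hne', eventually_eventually_nhds.2 hQe,
    hQ.eventually] with z h1 h2 h3 h4 hzK
  refine H383.Gen.eq_of_freq (h1 hzK).continuousAt h4.continuousAt ?_
  exact (h2.and_eventually h3).mono fun w hw => hw.2 hw.1

end One

/-- **F2** -/
theorem extK : ExtKStmt := by
  intro p d X Y _ _ _ _ _ _ _ _ f S B 𝒢 G x 𝒟 hd hfc hS hsub hc hBc hB h𝒢 hp hne𝒢 hneB hx hG h𝒟 hbd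
  classical
  have hf : ∀ x, HolM (Cm (p + d)) (Cm p) f x := fun x => hfc.contMDiffAt
  let e₀ : Cm (p + d) ≃L[ℂ] (Cm p × Cm d) := ContinuousLinearEquiv.ofFinrankEq (by
    simp)
  obtain ⟨K, hKe⟩ : ∃ K, B ∪ ⋃₀ 𝒢 = K := ⟨_, rfl⟩
  have hKc : IsClosed K := by
    rw [← hKe]
    rw [sUnion_eq_biUnion]
    exact hBc.union (h𝒢.isClosed_biUnion fun D hD => (hp D hD).1)
  have hone : ∀ x', f x' ∉ S → ∃ g : X → ℂ, HolV (Cm (p + d)) g x' ∧
      (∀ᶠ z in 𝓝 x', z ∈ K → g z = 0) ∧ ∃ᶠ z in 𝓝 x', f z = f x' ∧ g z ≠ 0 := by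
    intro x' hx'
    rw [← hKe]
    exact exists_one hf e₀ (fun z hz => hsub z (by rw [hz]; exact hx')) (hc _ hx') hB hBc h𝒢 hp
      (fun D hD => hne𝒢 _ hx' D hD) (hneB _ hx') rfl
  rw [hKe] at hG hbd ⊢
  set χ := chartAt (Cm p) (f x) with hχ
  obtain ⟨c, hxc, hprod⟩ := H152.K.exists_prodChart hfc (χ := χ) (chart_mem_atlas _ _)
    (mem_chart_source _ _) (hsub x hx)
  have hfS : ∀ᶠ x' in 𝓝 x, f x' ∉ S :=
    hfc.continuous.continuousAt.eventually (hS.isOpen_compl.mem_nhds hx)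
  obtain ⟨U, hUsub, hU, hxU⟩ := mem_nhds_iff.1 (Filter.inter_mem hfS (Filter.inter_mem hG hbd))
  -- the chart
  set b₀ : Cm p := (c x).1 with hb₀
  set v₀ : Cm d := (c x).2 with hv₀
  have hcx : c.symm (b₀, v₀) = x := c.left_inv hxc
  set W : Set (Cm p × Cm d) := c.target ∩ c.symm ⁻¹' U with hWd
  have hW : IsOpen W := c.isOpen_inter_preimage_symm hU
  set K' : Set (Cm p × Cm d) := (c.target ∩ c.symm ⁻¹' Kᶜ)ᶜ with hK'd
  have hK' : IsClosed K' := (c.isOpen_inter_preimage_symm hKc.isOpen_compl).isClosed_compl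
  have hcK : ∀ w ∈ c.target, (w ∉ K' ↔ c.symm w ∉ K) := by
    intro w hw
    rw [hK'd, mem_compl_iff, not_not]
    exact ⟨fun h => h.2, fun h => ⟨hw, h⟩⟩
  have hcs : ∀ w ∈ c.target, ContinuousAt c.symm w := fun w hw =>
    c.symm.continuousAt (by simpa using hw)
  have hfst : ∀ w ∈ c.target, f (c.symm w) ∈ χ.source ∧ w.1 = χ (f (c.symm w)) := by
    intro w hw
    obtain ⟨h1, h2⟩ := hprod.fst (c.symm w) (c.map_target hw)
    rw [c.right_inv hw] at h2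
    exact ⟨h1, h2⟩
  have hfy : ∀ w ∈ c.target, f (c.symm w) = χ.symm w.1 := by
    intro w hw
    obtain ⟨h1, h2⟩ := hfst w hw
    rw [h2, χ.left_inv h1]
  -- the slices
  have hj : ∀ (b : Cm p) (v : Cm d), (b, v) ∈ c.target →
      ContMDiffAt 𝓘(ℂ, Cm d) 𝓘(ℂ, Cm (p + d)) ω (fun v' => c.symm (b, v')) v := by
    intro b v hbv
    have h1 : ContMDiffAt 𝓘(ℂ, Cm p × Cm d) 𝓘(ℂ, Cm (p + d)) ω c.symm (b, v) :=
      hprod.symm_hol.contMDiffAt (c.open_target.mem_nhds hbv)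
    have h2 : ContMDiffAt 𝓘(ℂ, Cm d) 𝓘(ℂ, Cm p × Cm d) ω (fun v' : Cm d => (b, v')) v := by
      refine ContDiffAt.contMDiffAt ?_
      exact contDiffAt_const.prodMk contDiffAt_id
    exact ContMDiffAt.comp v (g := c.symm) (f := fun v' : Cm d => (b, v')) h1 h2
  have htgt : ∀ (b : Cm p) (v : Cm d), (b, v) ∈ c.target → ∀ᶠ v' in 𝓝 v, (b, v') ∈ c.target := by
    intro b v hbv
    have hcc : ContinuousAt (fun v' : Cm d => (b, v')) v := by fun_prop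
    exact hcc.eventually (c.open_target.mem_nhds hbv)
  -- frequently, on the slices
  have hfreq : ∀ (b : Cm p) (v : Cm d) (g : X → ℂ), (b, v) ∈ c.target →
      (∃ᶠ z in 𝓝 (c.symm (b, v)), f z = f (c.symm (b, v)) ∧ g z ≠ 0) →
      ∃ᶠ v' in 𝓝 v, g (c.symm (b, v')) ≠ 0 := by
    intro b v g hbv hfr
    have h1 : Tendsto (fun z => (c z).2) (𝓝 (c.symm (b, v))) (𝓝 v) := by
      have h2 : ContinuousAt (fun z => (c z).2) (c.symm (b, v)) :=
        (c.continuousAt (c.map_target hbv)).snd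
      have h3 : (c (c.symm (b, v))).2 = v := by
        rw [c.right_inv hbv]
      have h4 := h2.tendsto
      rwa [h3] at h4
    refine h1.frequently ((hfr.and_eventually (c.open_source.mem_nhds (c.map_target hbv))).mono ?_)
    rintro z ⟨⟨h2, h3⟩, h4⟩
    have h5 : (b, (c z).2) = c z := by
      have h6 := (hprod.fst z h4).2
      have h7 := (hfst (b, v) hbv).2
      refine Prod.ext ?_ rfl
      show b = (c z).1
      rw [h6, h2]
      exact h7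
    rw [h5, c.left_inv h4]
    exact h3
  -- the circle
  obtain ⟨g, hg, hgK, hgf⟩ := hone x hx
  have hcx0 : (b₀, v₀) ∈ c.target := by
    have := c.map_source hxc
    exact this
  have hcirc : ∃ (ξ : Cm d) (ρ : ℝ), 0 < ρ ∧ (∀ s : ℂ, ‖s‖ ≤ ρ → (b₀, v₀ + s • ξ) ∈ W) ∧
      ∀ s : ℂ, ‖s‖ = ρ → (b₀, v₀ + s • ξ) ∉ K' := by
    have h1 : ∀ᶠ v in 𝓝 v₀, (b₀, v) ∈ c.target ∧ HolV (Cm (p + d)) g (c.symm (b₀, v)) := by
      have h2 : ContinuousAt (fun v => c.symm (b₀, v)) v₀ := (hj b₀ v₀ hcx0).continuousAt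
      have h3 : ∀ᶠ z in 𝓝 (c.symm (b₀, v₀)), HolV (Cm (p + d)) g z := by
        rw [hcx]
        exact hg.eventually
      exact (htgt b₀ v₀ hcx0).and (h2.eventually h3)
    obtain ⟨r, hr, hball⟩ := Metric.eventually_nhds_iff_ball.1 h1
    obtain ⟨ξ, hξ⟩ := exists_circle (g := fun v => g (c.symm (b₀, v))) hr (fun v hv => by
      obtain ⟨h2, h3⟩ := hball v hv
      exact H150.Gen.analyticAt_of_holAt (ContMDiffAt.comp v (g := g)
        (f := fun v => c.symm (b₀, v)) h3 (hj b₀ v h2))) (by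
      obtain ⟨v, hv1, hv2⟩ := ((hfreq b₀ v₀ g hcx0 (by rw [hcx]; exact hgf)).and_eventually
        (ball_mem_nhds v₀ hr)).exists
      exact ⟨v, hv2, hv1⟩)
    have hline : ContinuousAt (fun s : ℂ => (b₀, v₀ + s • ξ)) 0 := by fun_prop
    have hline0 : (fun s : ℂ => (b₀, v₀ + s • ξ)) 0 = (b₀, v₀) := by simp
    have h4 : ∀ᶠ s : ℂ in 𝓝 0, (b₀, v₀ + s • ξ) ∈ W := by
      refine hline.eventually (hW.mem_nhds ?_)
      rw [hline0]
      refine ⟨hcx0, ?_⟩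
      show c.symm (b₀, v₀) ∈ U
      rw [hcx]
      exact hxU
    have h5 : ∀ᶠ s : ℂ in 𝓝 0, c.symm (b₀, v₀ + s • ξ) ∈ K → g (c.symm (b₀, v₀ + s • ξ)) = 0 := by
      have h6 : ∀ᶠ w in 𝓝 (b₀, v₀), c.symm w ∈ K → g (c.symm w) = 0 := by
        have h7 := hcs (b₀, v₀) hcx0
        refine h7.eventually (p := fun z => z ∈ K → g z = 0) ?_
        rw [hcx]
        exact hgK
      rw [← hline0] at h6
      exact hline.eventually h6
    obtain ⟨ρ, hρ, hρb⟩ := Metric.eventually_nhds_iff_ball.1 (h4.and (h5.and hξ))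
    refine ⟨ξ, ρ / 2, by positivity, fun s hs => ?_, fun s hs => ?_⟩
    · exact (hρb s (by simp; linarith)).1
    · obtain ⟨h6, h7, h8⟩ := hρb s (by simp; linarith)
      have hs0 : s ≠ 0 := by
        intro h0
        rw [h0, norm_zero] at hs
        linarith
      rw [hcK _ h6.1]
      exact fun h9 => h8 hs0 (h7 h9)
  obtain ⟨ξ, ρ, hρ, hdisc, hci⟩ := hcirc
  -- the dense set
  set D : Set (Cm p) := {b | b ∈ χ.target → χ.symm b ∈ 𝒟} with hDd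
  have hD : Dense D := by
    rw [dense_iff_inter_open]
    rintro O hO ⟨b, hb⟩
    by_cases hbt : b ∈ χ.target
    · obtain ⟨y, ⟨hy1, hy2⟩, hy3⟩ := h𝒟.inter_open_nonempty _
        (χ.isOpen_inter_preimage hO) ⟨χ.symm b, χ.map_target hbt, by
          show χ (χ.symm b) ∈ O
          rw [χ.right_inv hbt]
          exact hb⟩
      refine ⟨χ y, hy2, fun _ => ?_⟩
      rw [χ.left_inv hy1]
      exact hy3
    · exact ⟨b, hb, fun h => absurd h hbt⟩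
  have hWt : ∀ w ∈ W, w ∈ c.target ∧ c.symm w ∈ U := fun w hw => hw
  have hcont : ContinuousOn (fun w => G (c.symm w)) (W \ K') := by
    rintro w ⟨hw, hwK⟩
    obtain ⟨h1, h2⟩ := hWt w hw
    have h3 : HolV (Cm (p + d)) G (c.symm w) := (hUsub h2).2.1 ((hcK w h1).1 hwK)
    have h4 : ContinuousAt (fun w => G (c.symm w)) w :=
      ContinuousAt.comp (g := G) h3.continuousAt (hcs w h1)
    exact h4.continuousWithinAt
  obtain ⟨C, hC⟩ := bound_of_circle (G := fun w => G (c.symm w)) (K := K') (W := W) (D := D)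
    (b₀ := b₀) (v₀ := v₀) (ξ := ξ) hW hK' hcont hρ hdisc hci hD (by
    intro b hb
    have hWb : IsOpen {v : Cm d | (b, v) ∈ W} := hW.preimage (by fun_prop)
    obtain ⟨q, hq1, hq2⟩ := glue (V := Cm d) (W := {v : Cm d | (b, v) ∈ W})
      (K := {v : Cm d | (b, v) ∈ K'}) hWb (g₀ := fun v => G (c.symm (b, v))) (by
      intro v hv
      obtain ⟨h1, h2⟩ := hWt (b, v) hv
      obtain ⟨h3, h4, h5⟩ := hUsub h2
      have hy𝒟 : f (c.symm (b, v)) ∈ 𝒟 := by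
        rw [hfy _ h1]
        refine hb ?_
        show b ∈ χ.target
        have h6 := (hfst _ h1).2
        have h7 : b = χ (f (c.symm (b, v))) := h6
        rw [h7]
        exact χ.map_source (hfst _ h1).1
      obtain ⟨C, hC⟩ := h5 hy𝒟
      obtain ⟨h, hh, hhK, hhf⟩ := hone (c.symm (b, v)) h3
      have hjc : ContinuousAt (fun v' => c.symm (b, v')) v := (hj b v h1).continuousAt
      have hWv : ∀ᶠ v' in 𝓝 v, (b, v') ∈ W := hWb.mem_nhds hv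
      have hKb : IsClosed {v : Cm d | (b, v) ∈ K'} := hK'.preimage (by fun_prop)
      have hDenV : HolV (Cm d) (fun v' => h (c.symm (b, v'))) v :=
        ContMDiffAt.comp v (g := h) (f := fun v' => c.symm (b, v')) hh (hj b v h1)
      obtain ⟨Q, hQ, hQe⟩ := agree_off (n := d) (M := Cm d) (K := {v : Cm d | (b, v) ∈ K'}) hKb
        (G := fun v => G (c.symm (b, v))) (Den := fun v' => h (c.symm (b, v'))) hDenV
        (hfreq b v h h1 hhf) (by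
        filter_upwards [hWv, hjc.eventually hhK] with v' h6 h7 h8
        refine h7 ?_
        by_contra h9
        exact ((hcK _ (hWt _ h6).1).2 h9) h8) (by
        filter_upwards [hWv] with v' h6 h7
        have h8 : HolV (Cm (p + d)) G (c.symm (b, v')) :=
          (hUsub (hWt _ h6).2).2.1 ((hcK _ (hWt _ h6).1).1 h7)
        exact ContMDiffAt.comp v' (g := G) (f := fun v' => c.symm (b, v')) h8
          (hj b v' (hWt _ h6).1)) (by
        filter_upwards [hjc.eventually hC.eventually_nhds, hWv] with v' h6 h7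
        refine ⟨C, ?_⟩
        have hjc' : ContinuousAt (fun v' => c.symm (b, v')) v' := (hj b v' (hWt _ h7).1).continuousAt
        filter_upwards [hjc'.eventually h6, hWb.mem_nhds h7] with w h8 h9 h10
        refine h8 ?_ ((hcK _ (hWt _ h9).1).1 h10)
        rw [hfy _ (hWt _ h9).1, hfy _ h1])
      exact ⟨Q, H150.Gen.analyticAt_of_holAt hQ, hQe.mono fun v' hv' hK => (hv' hK).symm⟩) (by
      intro v hv
      obtain ⟨h1, h2⟩ := hWt (b, v) hv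
      obtain ⟨h, hh, hhK, hhf⟩ := hone (c.symm (b, v)) (hUsub h2).1
      have hjc : ContinuousAt (fun v' => c.symm (b, v')) v := (hj b v h1).continuousAt
      refine ((hfreq b v h h1 hhf).and_eventually ((hjc.eventually hhK).and
        (hWb.mem_nhds hv))).mono ?_
      rintro v' ⟨h3, h4, h5⟩ h6
      refine h3 (h4 ?_)
      by_contra h7
      exact ((hcK _ (hWt _ h5).1).2 h7) h6)
    exact ⟨q, fun v hv => hq1 v hv, fun v hv hvK => hq2 v hv hvK⟩)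
  -- back to `X`
  have hbX : ∀ᶠ z in 𝓝 x, z ∉ K → ‖G z‖ ≤ C := by
    have h1 : ContinuousAt c x := c.continuousAt hxc
    have h2 : ∀ᶠ z in 𝓝 x, c z ∉ K' → ‖G (c.symm (c z))‖ ≤ C := h1.eventually hC
    filter_upwards [h2, c.open_source.mem_nhds hxc] with z h3 h4 h5
    rw [c.left_inv h4] at h3
    refine h3 ?_
    rw [hcK _ (c.map_source h4), c.left_inv h4]
    exact h5
  exact agree_off hKc hg (hgf.mono fun z hz => hz.2) hgK hG
    (hbX.eventually_nhds.mono fun z hz => ⟨C, hz⟩)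

end Vale.Agent.P281.H603.TGF
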