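import Mathlib

/-!
# P281, T-GF (helper603): lines which avoid small sets, and the maximum principle on circles

Mathlib only.
-/

open Set Filter Metric Topology

noncomputable section

namespace Vale.Agent.P281.H603.TGF

variable {B V : Type} [NormedAddCommGroup B] [NormedSpace ℂ B] [NormedAddCommGroup V]
  [NormedSpace ℂ V]

/-! ### Bounds from a circle -/

/-- `G` is bounded near `(b₀, v₀)` if a circle in the fibre avoids `K` and `G` extends
holomorphically on the fibres over a dense set -/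
theorem bound_of_circle {G : B × V → ℂ} {K W : Set (B × V)} {D : Set B} {b₀ : B} {v₀ ξ : V} {ρ : ℝ}
    (hW : IsOpen W) (hK : IsClosed K) (hG : ContinuousOn G (W \ K)) (hρ : 0 < ρ)
    (hdisc : ∀ s : ℂ, ‖s‖ ≤ ρ → (b₀, v₀ + s • ξ) ∈ W)
    (hcirc : ∀ s : ℂ, ‖s‖ = ρ → (b₀, v₀ + s • ξ) ∉ K) (hD : Dense D)
    (hfib : ∀ b ∈ D, ∃ g : V → ℂ, (∀ v, (b, v) ∈ W → AnalyticAt ℂ g v) ∧
      ∀ v, (b, v) ∈ W → (b, v) ∉ K → g v = G (b, v)) :
    ∃ C : ℝ, ∀ᶠ w in 𝓝 (b₀, v₀), w ∉ K → ‖G w‖ ≤ C := by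
  have hWK : IsOpen (W \ K) := hW.sdiff hK
  let F : (B × V) × ℂ → B × V := fun q => (q.1.1, q.1.2 + q.2 • ξ)
  have hF : Continuous F := by
    refine Continuous.prodMk (continuous_fst.comp continuous_fst) ?_
    exact (continuous_snd.comp continuous_fst).add (continuous_snd.smul continuous_const)
  -- the circle
  have hsph : IsCompact (sphere (0 : ℂ) ρ) := isCompact_sphere 0 ρ
  have hball : IsCompact (closedBall (0 : ℂ) ρ) := isCompact_closedBall 0 ρ
  have h1 : ∀ᶠ w in 𝓝 (b₀, v₀), ∀ s ∈ closedBall (0 : ℂ) ρ, F (w, s) ∈ W := by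
    refine hball.eventually_forall_of_forall_eventually fun s hs => ?_
    refine hF.continuousAt.eventually (hW.mem_nhds ?_)
    exact hdisc s (by simpa using hs)
  have h2 : ∀ᶠ w in 𝓝 (b₀, v₀), ∀ s ∈ sphere (0 : ℂ) ρ, F (w, s) ∈ W \ K := by
    refine hsph.eventually_forall_of_forall_eventually fun s hs => ?_
    refine hF.continuousAt.eventually (hWK.mem_nhds ?_)
    have hs' : ‖s‖ = ρ := by simpa using hs
    exact ⟨hdisc s hs'.le, hcirc s hs'⟩
  have h3 : ∃ C : ℝ, ∀ᶠ w in 𝓝 (b₀, v₀), ∀ s ∈ sphere (0 : ℂ) ρ, ‖G (F (w, s))‖ ≤ C := by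
    have hc : ContinuousOn (fun s : ℂ => ‖G (F ((b₀, v₀), s))‖) (sphere (0 : ℂ) ρ) := by
      refine ContinuousOn.norm (hG.comp (hF.comp (by fun_prop)).continuousOn fun s hs => ?_)
      have hs' : ‖s‖ = ρ := by simpa using hs
      exact ⟨hdisc s hs'.le, hcirc s hs'⟩
    obtain ⟨C, hC⟩ := (hsph.image_of_continuousOn hc).bddAbove
    refine ⟨C + 1, ?_⟩
    refine hsph.eventually_forall_of_forall_eventually fun s hs => ?_
    have hs' : ‖s‖ = ρ := by simpa using hs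
    have hmem : F ((b₀, v₀), s) ∈ W \ K := ⟨hdisc s hs'.le, hcirc s hs'⟩
    have h4 : ‖G (F ((b₀, v₀), s))‖ < C + 1 := by
      have := hC (mem_image_of_mem _ hs)
      linarith
    have h5 : ContinuousAt (fun q => ‖G (F q)‖) ((b₀, v₀), s) :=
      ((hG.continuousAt (hWK.mem_nhds hmem)).comp hF.continuousAt).norm
    exact (h5.eventually (gt_mem_nhds h4)).mono fun q hq => le_of_lt hq
  obtain ⟨C, hC⟩ := h3
  -- the neighbourhood
  obtain ⟨N, hN, hNo, hN₀⟩ := _root_.eventually_nhds_iff.1 (h1.and (h2.and hC))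
  refine ⟨C, _root_.eventually_nhds_iff.2 ⟨N, fun w hw hwK => ?_, hNo, hN₀⟩⟩
  -- points over `D`
  have key : ∀ w ∈ N, w ∉ K → w.1 ∈ D → ‖G w‖ ≤ C := by
    rintro ⟨b, v⟩ hw hwK hb
    obtain ⟨g, hg, hgG⟩ := hfib b hb
    obtain ⟨hw1, hw2, hw3⟩ := hN _ hw
    have hself : (b, v) ∈ W := by
      have := hw1 0 (by simpa using hρ.le)
      simpa [F] using this
    rw [← hgG v hself hwK]
    have hd : DiffContOnCl ℂ (fun s : ℂ => g (v + s • ξ)) (ball (0 : ℂ) ρ) := by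
      refine DifferentiableOn.diffContOnCl fun s hs => ?_
      rw [closure_ball _ hρ.ne'] at hs
      have h6 := hg _ (hw1 s hs)
      refine DifferentiableAt.differentiableWithinAt ?_
      exact h6.differentiableAt.comp s (by fun_prop)
    have h7 := Complex.norm_le_of_forall_mem_frontier_norm_le isBounded_ball hd (C := C)
      (fun s hs => ?_) (subset_closure (mem_ball_self hρ))
    · simpa using h7
    · rw [frontier_ball _ hρ.ne'] at hs
      have h8 := hw2 s hs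
      rw [hgG _ h8.1 h8.2]
      exact hw3 s hs
  -- all points
  have hwW : w ∈ W := by
    have := (hN w hw).1 0 (by simpa using hρ.le)
    simpa [F] using this
  by_contra hlt
  push Not at hlt
  have h9 : ∀ᶠ w' in 𝓝 w, C < ‖G w'‖ :=
    ((hG.continuousAt (hWK.mem_nhds ⟨hwW, hwK⟩)).norm.eventually (lt_mem_nhds hlt))
  have h10 : ∀ᶠ b' in 𝓝 w.1, C < ‖G (b', w.2)‖ ∧ (b', w.2) ∈ N ∧ (b', w.2) ∉ K := by
    have hcc : ContinuousAt (fun b' : B => (b', w.2)) w.1 := by fun_prop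
    have h11 : ∀ᶠ w' in 𝓝 w, w' ∈ N := IsOpen.mem_nhds hNo hw
    have h12 : ∀ᶠ w' in 𝓝 w, w' ∉ K := hK.isOpen_compl.mem_nhds hwK
    exact hcc.eventually (h9.and (h11.and h12))
  obtain ⟨b', hb', hb'D⟩ := mem_closure_iff_nhds.1 (hD w.1) _ h10
  exact absurd (key _ hb'.2.1 hb'.2.2 hb'D) (not_le.2 hb'.1)

end Vale.Agent.P281.H603.TGF
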